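import Vale.Agent.P011.Arith.Landherr

/-!
An element of norm one is a product of two elements of norm one, close to one at two disjoint
finite sets of primes.
-/

open NumberField IsDedekindDomain

namespace Vale.Agent.P011Z.SUn

open Vale.Agent.P011 Vale.Agent.P011.Arith Vale.Agent.P011.Arith.Lan

theorem small_frac {E : Type} [Field E] (v : Valuation E Z0) {A : E} (hA : A ≠ 0) (B C D : E)
    {g : Z0} (hg : g ≠ 0) : ∃ g' : Z0, g' ≠ 0 ∧ ∀ ε : E, v ε < g' →
      v (ε ^ 2 * C / ((A + ε * B) ^ 2 - D * ε ^ 2)) < g := by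
  set m : Z0 := max (max (max (v (2 * A * B)) (v (B ^ 2 - D))) (v C)) 1 with hm
  have hm1 : 1 ≤ m := le_max_right _ _
  have hm0 : 0 < m := lt_of_lt_of_le zero_lt_one hm1
  have hA2 : 0 < v (A ^ 2) := zero_lt_iff.mpr ((Valuation.ne_zero_iff v).mpr (pow_ne_zero 2 hA))
  have hg0 : 0 < min g 1 := lt_min (zero_lt_iff.mpr hg) zero_lt_one
  refine ⟨min 1 (v (A ^ 2) * min g 1 / m), ?_, fun ε hε => ?_⟩
  · exact (lt_min zero_lt_one (div_pos (mul_pos hA2 hg0) hm0)).ne'
  · have h1 : v ε < 1 := lt_of_lt_of_le hε (min_le_left _ _)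
    have h2 : v ε * m < v (A ^ 2) * min g 1 :=
      (lt_div_iff₀ hm0).mp (lt_of_lt_of_le hε (min_le_right _ _))
    have h3 : v ε * m < v (A ^ 2) :=
      lt_of_lt_of_le h2 (mul_le_of_le_one_right' (min_le_right _ _))
    have h4 : v ε * m < v (A ^ 2) * g :=
      lt_of_lt_of_le h2 (mul_le_mul_right (min_le_left _ _) _)
    have h5 : v (2 * A * B + ε * (B ^ 2 - D)) ≤ m := by
      refine v.map_add_le ((le_max_left _ _).trans ((le_max_left _ _).trans (le_max_left _ _))) ?_
      rw [map_mul]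
      exact (mul_le_of_le_one_left' h1.le).trans
        ((le_max_right _ _).trans ((le_max_left _ _).trans (le_max_left _ _)))
    have h6 : v ((A + ε * B) ^ 2 - D * ε ^ 2) = v (A ^ 2) := by
      have e : (A + ε * B) ^ 2 - D * ε ^ 2 = A ^ 2 + ε * (2 * A * B + ε * (B ^ 2 - D)) := by ring
      rw [e]
      refine v.map_add_eq_of_lt_left ?_
      rw [map_mul]
      exact lt_of_le_of_lt (mul_le_mul_right h5 _) h3
    rw [map_div₀, h6, div_lt_iff₀ hA2, mul_comm g, map_mul, map_pow, sq, mul_assoc]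
    refine lt_of_le_of_lt ?_ h4
    refine (mul_le_of_le_one_left' h1.le).trans (mul_le_mul_right ?_ _)
    exact (le_max_right _ _).trans (le_max_left _ _)

variable {E L : Type} [Field E] [Field L] [StarRing L] [Algebra E L] {d : Eˣ} {θ : L}

theorem star_coords (h : Quad d θ) (p r : E) :
    star (algebraMap E L p + algebraMap E L r * θ) = algebraMap E L p - algebraMap E L r * θ := by
  rw [star_add, star_mul', h.star_alg, h.star_alg, h.star_theta]
  ring

theorem coords_zero [CharZero E] (h : Quad d θ) {p r : E}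
    (h0 : algebraMap E L p + algebraMap E L r * θ = 0) : p = 0 ∧ r = 0 := by
  have _hL : CharZero L := charZero_of_injective_algebraMap (algebraMap E L).injective
  have h1 := star_coords h p r
  rw [h0, star_zero] at h1
  have h2 : algebraMap E L p = 0 := by linear_combination (h0 - h1) / 2
  have h3 : algebraMap E L r * θ = 0 := by linear_combination (h0 + h1) / 2
  exact ⟨(map_eq_zero _).mp h2, (map_eq_zero _).mp ((mul_eq_zero.mp h3).resolve_right h.theta_ne)⟩

/-- The element `μ / star μ`. -/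
noncomputable def quo (μ : L) (h : μ ≠ 0) : Lˣ :=
  Units.mk0 (μ / star μ) (div_ne_zero h (star_ne_zero.mpr h))

theorem quo_norm (μ : L) (h : μ ≠ 0) : (quo μ h : L) * star (quo μ h : L) = 1 := by
  have h' : star μ ≠ 0 := star_ne_zero.mpr h
  rw [quo, Units.val_mk0, star_div₀, star_star]
  field_simp

theorem quo_nu (h : Quad d θ) (p r : E) (h0 : algebraMap E L p + algebraMap E L r * θ ≠ 0) :
    algebraMap E L (r ^ 2 * (-4 * d) / (p ^ 2 - d * r ^ 2)) =
      2 - (quo _ h0 : L) - star (quo _ h0 : L) := by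
  have h' := star_ne_zero.mpr h0
  rw [map_div₀, ← h.norm, quo, Units.val_mk0, star_div₀, star_star]
  rw [star_coords h] at h' ⊢
  rw [map_mul, map_mul, map_pow, ← h.sq, map_neg, map_ofNat]
  field_simp
  ring

theorem hilbert90 [CharZero E] (h : Quad d θ) {c : Lˣ} (hc : (c : L) * star (c : L) = 1) :
    ∃ (μ : L) (h0 : μ ≠ 0), c = quo μ h0 := by
  by_cases h1 : (c : L) = -1
  · refine ⟨θ, h.theta_ne, Units.ext ?_⟩
    rw [h1, quo, Units.val_mk0, h.star_theta, div_neg, div_self h.theta_ne]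
  · have h2 : 1 + (c : L) ≠ 0 := fun h0 => h1 (by linear_combination h0)
    refine ⟨1 + c, h2, Units.ext ?_⟩
    rw [quo, Units.val_mk0, eq_div_iff (star_ne_zero.mpr h2), star_add, star_one]
    linear_combination hc

/-- The splitting of an element of norm one. -/
theorem split [NumberField E] (h : Quad d θ) {S1 S2 : Set (HeightOneSpectrum (𝓞 E))}
    (h1 : S1.Finite) (h2 : S2.Finite) (hd : ∀ w ∈ S2, w ∉ S1)
    (g1 g2 : HeightOneSpectrum (𝓞 E) → Z0) (hg1 : ∀ w, g1 w ≠ 0) (hg2 : ∀ w, g2 w ≠ 0)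
    {c : Lˣ} (hc : (c : L) * star (c : L) = 1) :
    ∃ (c1 c2 : Lˣ) (ν1 ν2 : E), c = c1 * c2 ∧ (c1 : L) * star (c1 : L) = 1 ∧
      (c2 : L) * star (c2 : L) = 1 ∧ algebraMap E L ν1 = 2 - (c1 : L) - star (c1 : L) ∧
      algebraMap E L ν2 = 2 - (c2 : L) - star (c2 : L) ∧
      (∀ w ∈ S1, w.valuation E ν1 < g1 w) ∧ ∀ w ∈ S2, w.valuation E ν2 < g2 w := by
  classical
  obtain ⟨μ, hμ, rfl⟩ := hilbert90 h hc
  obtain ⟨p, r, rfl⟩ := h.coords μ
  by_cases hr : r = 0
  · have e : (quo _ hμ : L) = 1 := by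
      rw [quo, Units.val_mk0, star_coords h]
      subst hr
      rw [map_zero, zero_mul, add_zero] at hμ
      rw [map_zero, zero_mul, add_zero, sub_zero, div_self hμ]
    refine ⟨1, 1, 0, 0, Units.ext (by rw [e]; simp), by simp, by simp, by norm_num, by norm_num,
      fun w _ => ?_, fun w _ => ?_⟩
    · rw [map_zero]
      exact zero_lt_iff.mpr (hg1 w)
    · rw [map_zero]
      exact zero_lt_iff.mpr (hg2 w)
  set n : E := p ^ 2 - d * r ^ 2 with hn
  have hn0 : n ≠ 0 := by
    intro h0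
    have := h.norm p r
    rw [← hn, h0, map_zero] at this
    exact mul_ne_zero hμ (star_ne_zero.mpr hμ) this
  choose k1 hk1 hk1' using fun w : HeightOneSpectrum (𝓞 E) =>
    small_frac (w.valuation E) (one_ne_zero (α := E)) (p - 1) (r ^ 2 * (-4 * d)) (d * r ^ 2) (hg1 w)
  choose k2 hk2 hk2' using fun w : HeightOneSpectrum (𝓞 E) =>
    small_frac (w.valuation E) hn0 (p - n) (r ^ 2 * (-4 * d)) (d * r ^ 2) (hg2 w)
  obtain ⟨f, hf, -⟩ := approxVal (h1.toFinset ∪ h2.toFinset)
    (fun w => if w ∈ S1 then 0 else 1) (fun w => if w ∈ S1 then k1 w else k2 w)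
    (fun w _ => by
      split_ifs
      · exact hk1 w
      · exact hk2 w) (fun _ => 0) one_pos
  have hμ1 : algebraMap E L (1 + f * (p - 1)) + algebraMap E L (f * r) * θ ≠ 0 := by
    intro h0
    obtain ⟨h3, h4⟩ := coords_zero h h0
    have h5 : f = 0 := (mul_eq_zero.mp h4).resolve_right hr
    rw [h5, zero_mul, add_zero] at h3
    exact one_ne_zero h3
  have e2 : algebraMap E L (n + (1 - f) * (p - n)) + algebraMap E L ((1 - f) * r) * θ =
      (algebraMap E L p + algebraMap E L r * θ) *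
        star (algebraMap E L (1 + f * (p - 1)) + algebraMap E L (f * r) * θ) := by
    rw [star_coords h, hn]
    simp only [map_add, map_mul, map_sub, map_pow, map_one, ← h.sq]
    ring
  have hμ2 : algebraMap E L (n + (1 - f) * (p - n)) + algebraMap E L ((1 - f) * r) * θ ≠ 0 := by
    rw [e2]
    exact mul_ne_zero hμ (star_ne_zero.mpr hμ1)
  refine ⟨quo _ hμ1, quo _ hμ2, _, _, Units.ext ?_, quo_norm _ _, quo_norm _ _, quo_nu h _ _ hμ1,
    quo_nu h _ _ hμ2, fun w hw => ?_, fun w hw => ?_⟩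
  · have h3 := star_ne_zero.mpr hμ
    have h4 := star_ne_zero.mpr hμ1
    rw [Units.val_mul, quo, quo, quo, Units.val_mk0, Units.val_mk0, Units.val_mk0, e2, star_mul',
      star_star]
    generalize algebraMap E L (1 + f * (p - 1)) + algebraMap E L (f * r) * θ = μ1 at hμ1 h4
    generalize algebraMap E L p + algebraMap E L r * θ = μ at hμ h3
    field_simp
  · have h3 := hf w (Finset.mem_union_left _ (h1.mem_toFinset.mpr hw))
    simp only [if_pos hw, sub_zero] at h3
    have h4 := hk1' w f h3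
    have e : (f * r) ^ 2 * (-4 * d) / ((1 + f * (p - 1)) ^ 2 - d * (f * r) ^ 2) =
        f ^ 2 * (r ^ 2 * (-4 * d)) / ((1 + f * (p - 1)) ^ 2 - d * r ^ 2 * f ^ 2) := by
      congr 1 <;> ring
    rwa [e]
  · have h3 := hf w (Finset.mem_union_right _ (h2.mem_toFinset.mpr hw))
    simp only [if_neg (hd w hw)] at h3
    rw [← Valuation.map_neg, neg_sub] at h3
    have h4 := hk2' w (1 - f) h3
    have e : ((1 - f) * r) ^ 2 * (-4 * d) / ((n + (1 - f) * (p - n)) ^ 2 - d * ((1 - f) * r) ^ 2) =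
        (1 - f) ^ 2 * (r ^ 2 * (-4 * d)) /
          ((n + (1 - f) * (p - n)) ^ 2 - d * r ^ 2 * (1 - f) ^ 2) := by
      congr 1 <;> ring
    rwa [e]

end Vale.Agent.P011Z.SUn
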