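import Vale.Agent.P011Z.SUn.Tau
import Vale.Agent.P011Z.SUn.Split
import Vale.Agent.P011.D4.NearM

/-!
The norm-one quaternions acting on a plane of an anisotropic hermitian space.
-/

open Module NumberField IsDedekindDomain

namespace Vale.Agent.P011Z.SUn

open Vale.Agent.P011 Vale.Agent.P011.Arith Vale.Agent.P011.Arith.Lan Vale.Agent.P011.MPQ

theorem det_add_comp {L V W : Type} [Field L] [AddCommGroup V] [Module L V] [AddCommGroup W]
    [Module L W] [Module.Finite L V] [Module.Finite L W] (A : W →ₗ[L] V) (B : V →ₗ[L] W) :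
    LinearMap.det (LinearMap.id + A ∘ₗ B) = LinearMap.det (LinearMap.id + B ∘ₗ A) := by
  classical
  let v := Module.finBasis L V
  let w := Module.finBasis L W
  rw [← LinearMap.det_toMatrix v, ← LinearMap.det_toMatrix w, map_add, map_add,
    LinearMap.toMatrix_id, LinearMap.toMatrix_id, LinearMap.toMatrix_comp v w v,
    LinearMap.toMatrix_comp w v w, Matrix.det_one_add_mul_comm]

section rot

variable {L V : Type} [Field L] [StarRing L] [AddCommGroup V] [Module L V] {b : V → V → L}

/-- The coordinate along a vector. -/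
noncomputable def co (hb : Herm b) (y : V) : V →ₗ[L] L := (b y y)⁻¹ • hb.fn y

theorem co_apply (hb : Herm b) (y x : V) : co hb y x = (b y y)⁻¹ * b x y := rfl

/-- The map acting on the plane spanned by `y`, `y2`. -/
noncomputable def rot (hb : Herm b) (y y2 : V) (β α γ : L) : V →ₗ[L] V :=
  LinearMap.id + (((α - 1) • co hb y + (β * star γ) • co hb y2).smulRight y +
    (γ • co hb y + (star α - 1) • co hb y2).smulRight y2)

theorem rot_apply (hb : Herm b) (y y2 : V) (β α γ : L) (x : V) :
    rot hb y y2 β α γ x = x + (((α - 1) * co hb y x + β * star γ * co hb y2 x) • y +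
      (γ * co hb y x + (star α - 1) * co hb y2 x) • y2) := rfl

variable {y y2 : V} {β : L}

theorem co_self (hb : Herm b) (hy : b y y ≠ 0) : co hb y y = 1 := by
  rw [co_apply, inv_mul_cancel₀ hy]

theorem co_orth (hb : Herm b) (ho : b y y2 = 0) : co hb y2 y = 0 := by
  rw [co_apply, ho, mul_zero]

theorem orth_symm (hb : Herm b) (ho : b y y2 = 0) : b y2 y = 0 := by
  rw [← hb.symm, ho, star_zero]

theorem rot_one (hb : Herm b) : rot hb y y2 β 1 0 = 1 := by
  ext x
  rw [rot_apply]
  simp

theorem rot_mul (hb : Herm b) (hy : b y y ≠ 0) (hy2 : b y2 y2 ≠ 0) (ho : b y y2 = 0)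
    (hβ : star β = β) (α γ α' γ' : L) :
    rot hb y y2 β α' γ' * rot hb y y2 β α γ =
      rot hb y y2 β (α * α' + β * γ * star γ') (α * γ' + γ * star α') := by
  ext x
  rw [Module.End.mul_apply, rot_apply hb y y2 β α', rot_apply, rot_apply]
  simp only [map_add, map_smul, smul_eq_mul, co_self hb hy, co_self hb hy2, co_orth hb ho,
    co_orth hb (orth_symm hb ho), star_add, star_mul', star_star, hβ]
  module

theorem rot_isom (hb : Herm b) (hy : b y y ≠ 0) (hy2 : b y2 y2 ≠ 0) (ho : b y y2 = 0)
    (hβ : β * b y y = -b y2 y2) {α γ : L} (h1 : α * star α - β * (γ * star γ) = 1) (x z : V) :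
    b (rot hb y y2 β α γ x) (rot hb y y2 β α γ z) = b x z := by
  have hs1 : star (b y y) = b y y := hb.symm _ _
  have hs2 : star (b y2 y2) = b y2 y2 := hb.symm _ _
  have hβ' : β = -b y2 y2 / b y y := by rw [eq_div_iff hy, hβ]
  have hsβ : star β = β := by rw [hβ', star_div₀, star_neg, hs1, hs2]
  have e1 : b x y = b y y * co hb y x := by rw [co_apply, mul_inv_cancel_left₀ hy]
  have e2 : b x y2 = b y2 y2 * co hb y2 x := by rw [co_apply, mul_inv_cancel_left₀ hy2]
  have e3 : b y z = b y y * star (co hb y z) := by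
    rw [co_apply, star_mul', star_inv₀, hs1, hb.symm, mul_inv_cancel_left₀ hy]
  have e4 : b y2 z = b y2 y2 * star (co hb y2 z) := by
    rw [co_apply, star_mul', star_inv₀, hs2, hb.symm, mul_inv_cancel_left₀ hy2]
  have e5 : b y2 y2 = -(β * b y y) := by rw [hβ, neg_neg]
  rw [rot_apply, rot_apply]
  simp only [hb.add_left, hb.add_right, hb.smul_left, hb.smul_right, ho, orth_symm hb ho,
    star_add, star_mul', star_sub, star_star, star_one, hsβ]
  rw [e1, e2, e3, e4, e5]
  linear_combination (b y y * (co hb y x * star (co hb y z) -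
    β * (co hb y2 x * star (co hb y2 z)))) * h1

theorem rot_det [Module.Finite L V] (hb : Herm b) (hy : b y y ≠ 0) (hy2 : b y2 y2 ≠ 0)
    (ho : b y y2 = 0) (α γ : L) :
    LinearMap.det (rot hb y y2 β α γ) = α * star α - β * (γ * star γ) := by
  let A : (Fin 2 → L) →ₗ[L] V :=
    (LinearMap.proj 0 : (Fin 2 → L) →ₗ[L] L).smulRight y +
      (LinearMap.proj 1 : (Fin 2 → L) →ₗ[L] L).smulRight y2
  let B : V →ₗ[L] (Fin 2 → L) := LinearMap.pi
    ![(α - 1) • co hb y + (β * star γ) • co hb y2, γ • co hb y + (star α - 1) • co hb y2]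
  have e : rot hb y y2 β α γ = LinearMap.id + A ∘ₗ B := rfl
  rw [e, det_add_comp, ← LinearMap.det_toMatrix', Matrix.det_fin_two]
  simp [A, B, LinearMap.toMatrix'_apply, co_self hb hy, co_self hb hy2, co_orth hb ho,
    co_orth hb (orth_symm hb ho)]
  ring

/-- A quotient of two quasi-reflections along vectors of the plane. -/
theorem tau_rot (hb : Herm b) (hy : b y y ≠ 0) (ho : b y y2 = 0)
    (hβ : β * b y y = -b y2 y2) (s t : L) (hu : b (s • y + t • y2) (s • y + t • y2) ≠ 0)
    (hy2 : b y2 y2 ≠ 0) {c : Lˣ} (hc : (c : L) * star (c : L) = 1) (x : V) :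
    (tau hb y c * (tau hb (s • y + t • y2) c)⁻¹) x =
      rot hb y y2 β (c + (1 - c) * (s * star s * b y y / b (s • y + t • y2) (s • y + t • y2)))
        ((star (c : L) - 1) * (star s * t * b y y / b (s • y + t • y2) (s • y + t • y2))) x := by
  have hs1 : star (b y y) = b y y := hb.symm _ _
  have hsu : star (b (s • y + t • y2) (s • y + t • y2)) = b (s • y + t • y2) (s • y + t • y2) :=
    hb.symm _ _
  have hQ : b (s • y + t • y2) (s • y + t • y2) = s * star s * b y y + t * star t * b y2 y2 := by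
    simp only [hb.add_left, hb.add_right, hb.smul_left, hb.smul_right, ho, orth_symm hb ho]
    ring
  have hci : ((c⁻¹ : Lˣ) : L) = star (c : L) := by
    rw [Units.val_inv_eq_inv_val]
    exact inv_eq_of_mul_eq_one_right hc
  have e1 : b x y = b y y * co hb y x := by rw [co_apply, mul_inv_cancel_left₀ hy]
  have e2 : b x y2 = b y2 y2 * co hb y2 x := by rw [co_apply, mul_inv_cancel_left₀ hy2]
  have e5 : b y2 y2 = -(β * b y y) := by rw [hβ, neg_neg]
  have e6 : b x (s • y + t • y2) = star s * b x y + star t * b x y2 := by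
    rw [hb.add_right, hb.smul_right, hb.smul_right]
  have e7 : b (s • y + t • y2) y = s * b y y := by
    rw [hb.add_left, hb.smul_left, hb.smul_left, orth_symm hb ho, mul_zero, add_zero]
  rw [← map_inv, LinearEquiv.mul_apply, tau_apply, tau_apply, rot_apply, hci, hb.add_left x,
    hb.smul_left _ (s • y + t • y2) y, e7, e6, e1, e2]
  simp only [star_add, star_mul', star_sub, star_star, star_one, star_div₀, hs1, hsu]
  generalize b (s • y + t • y2) (s • y + t • y2) = Q at hu hQ
  rw [e5] at hQ ⊢
  match_scalars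
  · ring
  · field_simp
    linear_combination (s * (star s * co hb y x - star t * β * co hb y2 x) * b y y) * hc
  · field_simp
    linear_combination (-(star (c : L) - 1) * co hb y2 x) * hQ

end rot

variable {E L V : Type} [Field E] [Field L] [StarRing L] [Algebra E L]
  [AddCommGroup V] [Module L V] {d β : Eˣ} {θ : L} {b : V → V → L} {y y2 : V}

/-- The first coordinate of a quaternion. -/
def al (θ : L) (x : Qt d β) : L := algebraMap E L x.re + algebraMap E L x.imI * θ

/-- The second coordinate of a quaternion. -/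
def ga (θ : L) (x : Qt d β) : L := algebraMap E L x.imJ + algebraMap E L x.imK * θ

theorem al_mul (h : Quad d θ) (x x' : Qt d β) :
    al θ (x * x') = al θ x * al θ x' + algebraMap E L β * ga θ x * star (ga θ x') := by
  rw [ga, ga, star_coords h, al, al, al, QuaternionAlgebra.re_mul, QuaternionAlgebra.imI_mul]
  simp only [map_add, map_mul, map_sub, map_zero, ← h.sq]
  ring

theorem ga_mul (h : Quad d θ) (x x' : Qt d β) :
    ga θ (x * x') = al θ x * ga θ x' + ga θ x * star (al θ x') := by
  rw [al, al, star_coords h, ga, ga, ga, QuaternionAlgebra.imJ_mul, QuaternionAlgebra.imK_mul]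
  simp only [map_add, map_mul, map_sub, map_zero, ← h.sq]
  ring

theorem nrd_eq (h : Quad d θ) (x : Qt d β) :
    algebraMap E L (nrd x) =
      al θ x * star (al θ x) - algebraMap E L β * (ga θ x * star (ga θ x)) := by
  rw [al, ga, h.norm, h.norm, nrd, ← map_mul, ← map_sub]
  congr 1
  ring

/-- The action of the quaternions. -/
noncomputable def rho (h : Quad d θ) (hb : Herm b) (hy : b y y ≠ 0) (hy2 : b y2 y2 ≠ 0)
    (ho : b y y2 = 0) : Qt d β →* Module.End L V where
  toFun x := rot hb y y2 (algebraMap E L β) (star (al θ x)) (-ga θ x)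
  map_one' := by
    have e1 : al θ (1 : Qt d β) = 1 := by simp [al]
    have e2 : ga θ (1 : Qt d β) = 0 := by simp [ga]
    rw [e1, e2, star_one, neg_zero, rot_one]
  map_mul' x x' := by
    rw [rot_mul hb hy hy2 ho (h.star_alg _), al_mul h, ga_mul h]
    simp only [star_add, star_mul', star_star, star_neg, h.star_alg]
    congr 1 <;> ring

/-- The action of the norm-one quaternions. -/
noncomputable def phi [Module.Finite L V] (h : Quad d θ) (hb : Herm b) (hy : b y y ≠ 0)
    (hy2 : b y2 y2 ≠ 0) (ho : b y y2 = 0) (hβ : algebraMap E L β * b y y = -b y2 y2) :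
    SL1 d β →* SUb b :=
  (((LinearMap.GeneralLinearGroup.generalLinearEquiv L V).toMonoidHom.comp
    (Units.map (rho h hb hy hy2 ho))).comp (SL1 d β).subtype).codRestrict (SUb b) (fun x => by
      have h1 := nrd_eq h ((x : (Qt d β)ˣ) : Qt d β)
      have h2 : nrd ((x : (Qt d β)ˣ) : Qt d β) = 1 := x.2
      rw [h2, map_one] at h1
      have h3 : star (al θ ((x : (Qt d β)ˣ) : Qt d β)) *
          star (star (al θ ((x : (Qt d β)ˣ) : Qt d β))) - algebraMap E L β *
            (-ga θ ((x : (Qt d β)ˣ) : Qt d β) * star (-ga θ ((x : (Qt d β)ˣ) : Qt d β))) = 1 := by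
        rw [star_star, star_neg, h1]
        ring
      exact ⟨rot_isom hb hy hy2 ho hβ h3, (rot_det hb hy hy2 ho _ _).trans h3⟩)

theorem phi_apply [Module.Finite L V] (h : Quad d θ) (hb : Herm b) (hy : b y y ≠ 0)
    (hy2 : b y2 y2 ≠ 0) (ho : b y y2 = 0) (hβ : algebraMap E L β * b y y = -b y2 y2)
    (x : SL1 d β) (v : V) :
    (phi h hb hy hy2 ho hβ x : V ≃ₗ[L] V) v =
      rot hb y y2 (algebraMap E L β) (star (al θ ((x : (Qt d β)ˣ) : Qt d β)))
        (-ga θ ((x : (Qt d β)ˣ) : Qt d β)) v := rfl

theorem aniso [CharZero E] (h : Quad d θ) (hb : Herm b) (ha : ∀ x, b x x = 0 → x = 0)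
    (hy : b y y ≠ 0) (hy2 : b y2 y2 ≠ 0) (ho : b y y2 = 0)
    (hβ : algebraMap E L β * b y y = -b y2 y2) : Aniso d β := by
  intro x hx
  have h1 := nrd_eq h x
  rw [hx, map_zero] at h1
  have h2 : al θ x • y + ga θ x • y2 = 0 := by
    apply ha
    simp only [hb.add_left, hb.add_right, hb.smul_left, hb.smul_right, ho, orth_symm hb ho]
    linear_combination (-b y y) * h1 + (ga θ x * star (ga θ x)) * hβ
  have h3 : b (al θ x • y + ga θ x • y2) y = 0 := by rw [h2, hb.zero_left]
  have h4 : b (al θ x • y + ga θ x • y2) y2 = 0 := by rw [h2, hb.zero_left]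
  rw [hb.add_left, hb.smul_left, hb.smul_left, orth_symm hb ho, mul_zero, add_zero] at h3
  rw [hb.add_left, hb.smul_left, hb.smul_left, ho, mul_zero, zero_add] at h4
  obtain ⟨h5, h6⟩ := coords_zero h ((mul_eq_zero.mp h3).resolve_right hy)
  obtain ⟨h7, h8⟩ := coords_zero h ((mul_eq_zero.mp h4).resolve_right hy2)
  ext
  · exact h5
  · exact h6
  · exact h7
  · exact h8

/-- A quaternion of norm one as a unit. -/
def unitOf (x : Qt d β) (hx : nrd x = 1) : SL1 d β :=
  ⟨⟨x, star x, by
      rw [QuaternionAlgebra.mul_star_eq_coe]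
      have : (x * star x).re = 1 := by
        rw [← hx, nrd]
        simp
        ring
      rw [this]
      rfl, by
      rw [QuaternionAlgebra.star_mul_eq_coe]
      have : (star x * x).re = 1 := by
        rw [← hx, nrd]
        simp
        ring
      rw [this]
      rfl⟩, hx⟩

/-- The plane lemma. -/
theorem plane [NumberField E] [Module.Finite L V] (h : Quad d θ) (hb : Herm b)
    (ha : ∀ x, b x x = 0 → x = 0) {e : ℕ} (he : 0 < e) (N : Subgroup (SUb b)) (hN : N.Normal)
    (hi : N.index ≠ 0) (hexp : ∀ g : SUb b, g ^ e ∈ N) (hy : y ≠ 0) (hy2 : y2 ≠ 0)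
    (ho : b y y2 = 0) (hβ : algebraMap E L β * b y y = -b y2 y2) {u : V} (hu : u ≠ 0) {s t : L}
    (hst : u = s • y + t • y2) :
    ∃ g : HeightOneSpectrum (𝓞 E) → Z0, (∀ w, g w ≠ 0) ∧ ∀ (c : Lˣ) (ν : E),
      (c : L) * star (c : L) = 1 → algebraMap E L ν = 2 - (c : L) - star (c : L) →
      (∀ w, Ram d β w → w.valuation E ν < g w) →
        tau hb y c * (tau hb u c)⁻¹ ∈ N.map (SUb b).subtype := by
  subst hst
  have hy' : b y y ≠ 0 := fun h0 => hy (ha _ h0)
  have hy2' : b y2 y2 ≠ 0 := fun h0 => hy2 (ha _ h0)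
  have hu' : b (s • y + t • y2) (s • y + t • y2) ≠ 0 := fun h0 => hu (ha _ h0)
  have hs1 : star (b y y) = b y y := hb.symm _ _
  have hsu : star (b (s • y + t • y2) (s • y + t • y2)) = b (s • y + t • y2) (s • y + t • y2) :=
    hb.symm _ _
  have hQ : b (s • y + t • y2) (s • y + t • y2) = s * star s * b y y + t * star t * b y2 y2 := by
    simp only [hb.add_left, hb.add_right, hb.smul_left, hb.smul_right, ho, orth_symm hb ho]
    ring
  obtain ⟨κ, hκ⟩ := h.fix (s * star s * b y y / b (s • y + t • y2) (s • y + t • y2)) (by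
    rw [star_div₀, star_mul', star_mul', star_star, hs1, hsu, mul_comm (star s)])
  have he0 : (4 : E) * (e : E) ^ 4 ≠ 0 :=
    mul_ne_zero (by norm_num) (pow_ne_zero _ (Nat.cast_ne_zero.mpr he.ne'))
  have hm0 : ∀ w : HeightOneSpectrum (𝓞 E), 0 < max (w.valuation E (1 - κ)) 1 :=
    fun w => lt_of_lt_of_le zero_lt_one (le_max_right _ _)
  refine ⟨fun w => w.valuation E (4 * (e : E) ^ 4) / max (w.valuation E (1 - κ)) 1,
    fun w => div_ne_zero ((Valuation.ne_zero_iff _).mpr he0) (hm0 w).ne', fun c ν hc hν hw => ?_⟩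
  obtain ⟨p, r, hpr⟩ := h.coords (star ((c : L) + (1 - c) * algebraMap E L κ))
  obtain ⟨p', r', hpr'⟩ := h.coords
    (-((star (c : L) - 1) * (star s * t * b y y / b (s • y + t • y2) (s • y + t • y2))))
  let x : Qt d β := ⟨p, r, p', r'⟩
  have hal : al θ x = star ((c : L) + (1 - c) * algebraMap E L κ) := hpr.symm
  have hga : ga θ x =
      -((star (c : L) - 1) * (star s * t * b y y / b (s • y + t • y2) (s • y + t • y2))) :=
    hpr'.symm
  have hx : nrd x = 1 := by
    apply h.alg_inj
    rw [nrd_eq h, hal, hga, hκ, map_one]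
    simp only [star_add, star_mul', star_sub, star_star, star_one, star_div₀, star_neg, hs1, hsu]
    have e5 : b y2 y2 = -(algebraMap E L β * b y y) := by rw [hβ, neg_neg]
    generalize b (s • y + t • y2) (s • y + t • y2) = Q at hu' hQ
    rw [e5] at hQ
    field_simp
    linear_combination (Q ^ 2 - 2 * Q * (s * star s * b y y) + (s * star s * b y y) ^ 2 -
      algebraMap E L β * (s * star s * t * star t * b y y ^ 2)) * hc +
      ((2 - c - star (c : L)) * (s * star s * b y y)) * (-hQ)
  have hmem : unitOf x hx ∈ N.comap (phi h hb hy' hy2' ho hβ) := by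
    refine D4.sl_near (aniso h hb ha hy' hy2' ho hβ) he _ (hN.comap _) ?_ (fun g => ?_) _
      (fun w hw' => ?_)
    · rw [Subgroup.index_comap]
      exact fun h0 => hi (Nat.eq_zero_of_zero_dvd (h0 ▸ N.relIndex_dvd_index_of_normal _))
    · change phi h hb hy' hy2' ho hβ (g ^ e) ∈ N
      rw [map_pow]
      exact hexp _
    · have e1 : (2 : E) - 2 * ((unitOf x hx : (Qt d β)ˣ) : Qt d β).re = ν * (1 - κ) := by
        apply h.alg_inj
        change algebraMap E L (2 - 2 * p) = _
        have h1 := star_coords h p r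
        rw [← hpr, star_star] at h1
        rw [star_add, star_mul', star_sub, star_one, h.star_alg] at hpr
        rw [map_sub, map_mul, map_mul, map_ofNat, hν, map_sub, map_one]
        linear_combination h1 + hpr
      rw [e1, map_mul]
      exact lt_of_le_of_lt (mul_le_mul_right (le_max_left _ _) _) ((lt_div_iff₀ (hm0 w)).mp (hw w hw'))
  refine ⟨_, hmem, ?_⟩
  ext v
  change (phi h hb hy' hy2' ho hβ (unitOf x hx) : V ≃ₗ[L] V) v = _
  rw [phi_apply, tau_rot hb hy' ho hβ s t hu' hy2' hc]
  change rot hb y y2 _ (star (al θ x)) (-ga θ x) v = _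
  rw [hal, hga, star_star, neg_neg, hκ]

end Vale.Agent.P011Z.SUn
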