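import Vale.Agent.P011.Arith.Landherr

/-!
Quasi-reflections of an anisotropic hermitian space; they generate the isometries.
-/

open Module

namespace Vale.Agent.P011Z

open Vale.Agent.P011 Vale.Agent.P011.Arith.Lan

/-- The isometries of determinant one. -/
def SUb {L V : Type} [Field L] [AddCommGroup V] [Module L V] (b : V → V → L) :
    Subgroup (V ≃ₗ[L] V) where
  carrier := {g | (∀ x y, b (g x) (g y) = b x y) ∧ LinearMap.det (g : V →ₗ[L] V) = 1}
  one_mem' := ⟨fun _ _ => rfl, LinearMap.det_id⟩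
  mul_mem' := fun {g h} hg hh => ⟨fun x y => (hg.1 _ _).trans (hh.1 x y), by
    have e : ((g * h : V ≃ₗ[L] V) : V →ₗ[L] V) = (g : V →ₗ[L] V) ∘ₗ (h : V →ₗ[L] V) := rfl
    rw [e, LinearMap.det_comp, hg.2, hh.2, one_mul]⟩
  inv_mem' := fun {g} hg => ⟨fun x y => by
    have h := hg.1 (g.symm x) (g.symm y)
    rw [g.apply_symm_apply, g.apply_symm_apply] at h
    exact h.symm, by
    have h := LinearEquiv.det_symm_mul_det g
    rw [hg.2, mul_one] at h
    exact h⟩

namespace SUn

variable {L V : Type} [Field L] [StarRing L] [AddCommGroup V] [Module L V] {b : V → V → L}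

/-- The quasi-reflection as a linear map. -/
noncomputable def tauL (hb : Herm b) (y : V) (c : L) : V →ₗ[L] V :=
  LinearMap.transvection (((c - 1) / b y y) • hb.fn y) y

theorem tauL_apply (hb : Herm b) (y : V) (c : L) (x : V) :
    tauL hb y c x = x + ((c - 1) / b y y * b x y) • y := rfl

theorem tauL_one (hb : Herm b) (y : V) : tauL hb y 1 = 1 := by
  ext x
  rw [tauL_apply, sub_self, zero_div, zero_mul, zero_smul, add_zero]
  rfl

theorem tauL_mul (hb : Herm b) (y : V) (c c' : L) :
    tauL hb y (c * c') = tauL hb y c * tauL hb y c' := by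
  ext x
  rw [Module.End.mul_apply, tauL_apply, tauL_apply, tauL_apply, hb.add_left, hb.smul_left,
    add_assoc, ← add_smul]
  congr 2
  by_cases h0 : b y y = 0
  · rw [h0]
    simp
  · field_simp
    ring

/-- The quasi-reflections along a vector. -/
noncomputable def tauM (hb : Herm b) (y : V) : L →* Module.End L V where
  toFun := tauL hb y
  map_one' := tauL_one hb y
  map_mul' := tauL_mul hb y

/-- The quasi-reflections along a vector, as automorphisms. -/
noncomputable def tau (hb : Herm b) (y : V) : Lˣ →* (V ≃ₗ[L] V) :=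
  (LinearMap.GeneralLinearGroup.generalLinearEquiv L V).toMonoidHom.comp (Units.map (tauM hb y))

theorem tau_apply (hb : Herm b) (y : V) (c : Lˣ) (x : V) :
    tau hb y c x = x + (((c : L) - 1) / b y y * b x y) • y := rfl

theorem tau_coe (hb : Herm b) (y : V) (c : Lˣ) :
    (tau hb y c : V →ₗ[L] V) = tauL hb y c := rfl

theorem det_tau [Module.Finite L V] (hb : Herm b) {y : V} (hy : b y y ≠ 0) (c : Lˣ) :
    LinearMap.det (tau hb y c : V →ₗ[L] V) = c := by
  rw [tau_coe, tauL, LinearMap.transvection.det, LinearMap.smul_apply, Herm.fn_apply, smul_eq_mul]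
  field_simp
  ring

theorem tau_isom (hb : Herm b) (y : V) {c : Lˣ} (hc : (c : L) * star (c : L) = 1) (x z : V) :
    b (tau hb y c x) (tau hb y c z) = b x z := by
  rw [tau_apply, tau_apply, hb.add_left, hb.add_right, hb.add_right, hb.smul_left, hb.smul_left,
    hb.smul_right, hb.smul_right, star_mul', star_div₀, star_sub, star_one, hb.symm, hb.symm]
  by_cases h0 : b y y = 0
  · rw [h0]
    simp
  · field_simp
    linear_combination (b x y * b y z) * hc

theorem tau_fix (hb : Herm b) {y x : V} (c : Lˣ) (h : b x y = 0) : tau hb y c x = x := by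
  rw [tau_apply, h, mul_zero, zero_smul, add_zero]

theorem tau_comm (hb : Herm b) {y z : V} (h : b y z = 0) (c c' : Lˣ) :
    Commute (tau hb y c) (tau hb z c') := by
  have h' : b z y = 0 := by rw [← hb.symm, h, star_zero]
  ext x
  rw [LinearEquiv.mul_apply, LinearEquiv.mul_apply, tau_apply hb y, tau_apply hb z,
    tau_apply hb z, tau_apply hb y, hb.add_left, hb.add_left, hb.smul_left, hb.smul_left, h, h',
    mul_zero, mul_zero, add_zero, add_zero]
  abel

theorem norm_inv {c : Lˣ} (hc : (c : L) * star (c : L) = 1) :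
    ((c⁻¹ : Lˣ) : L) * star ((c⁻¹ : Lˣ) : L) = 1 := by
  rw [Units.val_inv_eq_inv_val, star_inv₀, ← mul_inv, hc, inv_one]

theorem norm_mul {c c' : Lˣ} (hc : (c : L) * star (c : L) = 1)
    (hc' : (c' : L) * star (c' : L) = 1) :
    ((c * c' : Lˣ) : L) * star ((c * c' : Lˣ) : L) = 1 := by
  rw [Units.val_mul, star_mul']
  linear_combination (c' : L) * star (c' : L) * hc + hc'

/-- A quasi-reflection moving `g x` back to `x`. -/
theorem exists_tau (hb : Herm b) (ha : ∀ x, b x x = 0 → x = 0) {g : V ≃ₗ[L] V}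
    (hg : ∀ x y, b (g x) (g y) = b x y) {x : V} (hx : g x ≠ x) :
    ∃ (v : V) (c : Lˣ), v ≠ 0 ∧ (c : L) * star (c : L) = 1 ∧ tau hb v c (g x) = x ∧
      ∀ u, g u = u → tau hb v c u = u := by
  have hv : g x - x ≠ 0 := sub_ne_zero.mpr hx
  have hvv : b (g x - x) (g x - x) ≠ 0 := fun h => hv (ha _ h)
  set α : L := b (g x) (g x - x) with hα
  have h1 : b x (g x - x) = -star α := by
    rw [hα, hb.symm, hb.sub_left, hb.sub_right, hg]
    ring
  have h2 : b (g x - x) (g x - x) = α + star α := by
    rw [hb.sub_left, h1]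
    ring
  have hα0 : α ≠ 0 := by
    intro h0
    rw [h2, h0, star_zero, add_zero] at hvv
    exact hvv rfl
  have hs0 : star α ≠ 0 := star_ne_zero.mpr hα0
  refine ⟨g x - x, Units.mk0 (-star α / α) (div_ne_zero (neg_ne_zero.mpr hs0) hα0), hv, ?_, ?_,
    fun u hu => tau_fix hb _ ?_⟩
  · rw [Units.val_mk0, star_div₀, star_neg, star_star]
    field_simp
  · rw [tau_apply, Units.val_mk0, ← hα]
    have h3 : (-star α / α - 1) / b (g x - x) (g x - x) * α = -1 := by
      rw [h2] at hvv ⊢
      field_simp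
      ring
    rw [h3, neg_one_smul]
    abel
  · rw [hb.sub_right, ← hg u x, hu, sub_self]

/-- The quotients of quasi-reflections generate the special unitary group. -/
theorem generate [Module.Finite L V] (hb : Herm b) (ha : ∀ x, b x x = 0 → x = 0)
    (M : Subgroup (V ≃ₗ[L] V)) (hM : M ≤ SUb b)
    (h : ∀ y z : V, y ≠ 0 → z ≠ 0 → ∀ c : Lˣ, (c : L) * star (c : L) = 1 →
      tau hb y c * (tau hb z c)⁻¹ ∈ M) (hV : Nontrivial V) : SUb b ≤ M := by
  have key : ∀ (n : ℕ) (g : V ≃ₗ[L] V), (∀ x y, b (g x) (g y) = b x y) →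
      finrank L V ≤ finrank L (LinearMap.eqLocus (g : V →ₗ[L] V) LinearMap.id) + n →
      ∃ c : Lˣ, (c : L) * star (c : L) = 1 ∧ ∀ y, y ≠ 0 → (tau hb y c)⁻¹ * g ∈ M := by
    intro n
    induction n with
    | zero =>
      intro g _ hn
      have h1 : LinearMap.eqLocus (g : V →ₗ[L] V) LinearMap.id = ⊤ :=
        Submodule.eq_top_of_finrank_eq (le_antisymm (Submodule.finrank_le _) hn)
      have h2 : g = 1 := by
        ext x
        have : x ∈ LinearMap.eqLocus (g : V →ₗ[L] V) LinearMap.id := h1 ▸ Submodule.mem_top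
        exact this
      refine ⟨1, by simp, fun y _ => ?_⟩
      rw [h2, map_one, inv_one, one_mul]
      exact M.one_mem
    | succ n ih =>
      intro g hg hn
      by_cases h1 : ∀ x, g x = x
      · have h2 : g = 1 := by
          ext x
          exact h1 x
        refine ⟨1, by simp, fun y _ => ?_⟩
        rw [h2, map_one, inv_one, one_mul]
        exact M.one_mem
      · push Not at h1
        obtain ⟨x, hx⟩ := h1
        obtain ⟨v, c, hv, hc, hcx, hfix⟩ := exists_tau hb ha hg hx
        have hlt : LinearMap.eqLocus (g : V →ₗ[L] V) LinearMap.id <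
            LinearMap.eqLocus ((tau hb v c * g : V ≃ₗ[L] V) : V →ₗ[L] V) LinearMap.id := by
          refine lt_of_le_of_ne (fun u hu => ?_) (fun he => hx ?_)
          · have hu' : g u = u := hu
            change tau hb v c (g u) = u
            rw [hu', hfix u hu']
          · have : x ∈ LinearMap.eqLocus ((tau hb v c * g : V ≃ₗ[L] V) : V →ₗ[L] V)
              LinearMap.id := hcx
            rw [← he] at this
            exact this
        have hlt' := Submodule.finrank_lt_finrank_of_lt hlt
        obtain ⟨μ, hμ, hμM⟩ := ih (tau hb v c * g) (fun x y => by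
          rw [LinearEquiv.mul_apply, LinearEquiv.mul_apply, tau_isom hb v hc, hg]) (by omega)
        have hν := norm_mul (norm_inv hc) hμ
        refine ⟨c⁻¹ * μ, hν, fun y hy => ?_⟩
        have h3 := M.mul_mem (h y v hy hv _ (norm_inv hν)) (hμM v hv)
        have e : tau hb y (c⁻¹ * μ)⁻¹ * (tau hb v (c⁻¹ * μ)⁻¹)⁻¹ *
            ((tau hb v μ)⁻¹ * (tau hb v c * g)) = (tau hb y (c⁻¹ * μ))⁻¹ * g := by
          rw [map_inv, map_inv, inv_inv, map_mul (tau hb v), map_inv]
          group
        rwa [e] at h3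
  intro g hg
  obtain ⟨c, -, hc⟩ := key (finrank L V) g hg.1 (Nat.le_add_left _ _)
  obtain ⟨y, hy⟩ := exists_ne (0 : V)
  have h1 := hc y hy
  have h2 : tau hb y c ∈ SUb b := by
    have h3 := (SUb b).mul_mem hg ((SUb b).inv_mem (hM h1))
    have e : g * ((tau hb y c)⁻¹ * g)⁻¹ = tau hb y c := by group
    rwa [e] at h3
  have h4 : (c : L) = 1 := by
    rw [← det_tau hb (fun h0 => hy (ha y h0)) c]
    exact h2.2
  have h5 : c = 1 := Units.ext h4
  rwa [h5, map_one, inv_one, one_mul] at h1

/-- A vector orthogonal to two vectors. -/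
theorem exists_orth (hb : Herm b) (hV : 3 ≤ finrank L V) (y z : V) :
    ∃ w : V, w ≠ 0 ∧ b w y = 0 ∧ b w z = 0 := by
  have hfin : Module.Finite L V := Module.finite_of_finrank_pos (by omega)
  have h1 := LinearMap.finrank_range_add_finrank_ker ((hb.fn y).prod (hb.fn z))
  have h2 : finrank L (LinearMap.range ((hb.fn y).prod (hb.fn z))) ≤ 2 := by
    have := Submodule.finrank_le (LinearMap.range ((hb.fn y).prod (hb.fn z)))
    rwa [Module.finrank_prod, Module.finrank_self] at this
  have h3 : Nontrivial (LinearMap.ker ((hb.fn y).prod (hb.fn z))) :=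
    Module.nontrivial_of_finrank_pos (R := L) (by omega)
  obtain ⟨w, hw⟩ := exists_ne (0 : LinearMap.ker ((hb.fn y).prod (hb.fn z)))
  have h4 : ((hb.fn y).prod (hb.fn z)) (w : V) = 0 := w.2
  exact ⟨w, fun h0 => hw (Subtype.ext h0), congrArg Prod.fst h4, congrArg Prod.snd h4⟩

end SUn

end Vale.Agent.P011Z
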